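import Vale.Agent.P096.Defs

/-!
P096: the strong Kadison-Kastler statement for type II_1 factors with separable predual. A von
Neumann algebra is Mathlib's `VonNeumannAlgebra`; a normal state is a countable sum of vector
functionals; a II_1 factor has separable predual iff it is countably generated.
-/

open scoped InnerProductSpace

namespace Vale.Agent.P096.Lit

universe u

variable (H : Type u) [NormedAddCommGroup H] [InnerProductSpace ℂ H] [CompleteSpace H]

/-- The centre of `M` consists of the scalars. -/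
def IsFactor (M : VonNeumannAlgebra H) : Prop :=
  ∀ z ∈ M, (∀ y ∈ M, ∀ h, z (y h) = y (z h)) → ∃ c : ℂ, ∀ h, z h = c • h

/-- `M` is not finite dimensional. -/
def IsInfiniteDim (M : VonNeumannAlgebra H) : Prop :=
  ¬ ∃ s : Finset (H →L[ℂ] H), (M : Set (H →L[ℂ] H)) ⊆ Submodule.span ℂ (s : Set (H →L[ℂ] H))

/-- The vectors `ξ n` give a faithful normal tracial state of `M`, namely `x ↦ ∑ ⟪ξ n, x (ξ n)⟫`. -/
def IsFaithfulTrace (M : VonNeumannAlgebra H) (ξ : ℕ → H) : Prop :=
  HasSum (fun n => ‖ξ n‖ ^ 2) 1 ∧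
    (∀ x ∈ M, ∀ y ∈ M, ∑' n, ⟪ξ n, x (y (ξ n))⟫_ℂ = ∑' n, ⟪ξ n, y (x (ξ n))⟫_ℂ) ∧
    ∀ x ∈ M, (∀ n, x (ξ n) = 0) → ∀ h, x h = 0

/-- `M` is a factor of type II_1. -/
def IsTypeTwoOneFactor (M : VonNeumannAlgebra H) : Prop :=
  IsFactor H M ∧ IsInfiniteDim H M ∧ ∃ ξ : ℕ → H, IsFaithfulTrace H M ξ

/-- `M` is generated by countably many of its elements: what commutes with those elements commutes
with all of `M`. -/
def IsCountablyGenerated (M : VonNeumannAlgebra H) : Prop :=
  ∃ g : ℕ → (H →L[ℂ] H), (∀ n, g n ∈ M) ∧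
    commutantSet (Set.range g) ⊆ commutantSet (M : Set (H →L[ℂ] H))

/-- Each element of the unit ball of either algebra is within `γ` of the other algebra. -/
def IsClose (M N : VonNeumannAlgebra H) (γ : ℝ) : Prop :=
  NearIncl (M : Set (H →L[ℂ] H)) N γ ∧ NearIncl (N : Set (H →L[ℂ] H)) M γ

/-- Close algebras, one of them a II_1 factor with separable predual, are conjugate by a unitary
near the identity, with absolute constants. -/
def Target : Prop :=
  ∃ δ C : ℝ, 0 < δ ∧ ∀ (H : Type u) [NormedAddCommGroup H] [InnerProductSpace ℂ H]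
    [CompleteSpace H] (M N : VonNeumannAlgebra H) (γ : ℝ),
    IsTypeTwoOneFactor H M → IsCountablyGenerated H M → γ < δ →
      IsClose H M N γ → NearConj M N (C * γ)

end Vale.Agent.P096.Lit
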