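import Vale.Agent.P085.Lit.Sanity
import Vale.Agent.P096.Lit.Statement

/-!
P096: the hypotheses of the statement are satisfiable, and the statement gives the epsilon-delta
form of the question for the Kadison-Kastler distance of unit balls.
-/

namespace Vale.Agent.P096.Lit

open VP086 VP086.Model

theorem typeTwoOne_of {H : Type} [NormedAddCommGroup H] [InnerProductSpace ℂ H] [CompleteSpace H]
    {M : VonNeumannAlgebra H} (h : VP085.Lit.IsTypeTwoOneFactor H M) :
    IsTypeTwoOneFactor H M := by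
  obtain ⟨hf, hd, ξ, hs, ht, hz⟩ := h
  refine ⟨fun z hz' hc => ?_, hd, ξ, hs, ht, fun x hx h0 v => by rw [hz x hx h0]; rfl⟩
  obtain ⟨c, hc'⟩ := hf z hz' fun y hy => ContinuousLinearMap.ext (hc y hy)
  exact ⟨c, fun v => by rw [hc']; rfl⟩

theorem countablyGenerated (G : Type) [Group G] [Countable G] :
    IsCountablyGenerated (GroupL2 G) (VP085.Lit.Sanity.vn G) := by
  obtain ⟨e, he⟩ := exists_surjective_nat G
  refine ⟨fun n => lmul (e n), fun n => VP085.Lit.Sanity.mem_vn.2 (lmul_mem _), fun a ha x hx v => ?_⟩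
  have h : a ∈ StarSubalgebra.centralizer ℂ (leftTranslations G) := by
    refine mem_commutant_iff.2 fun g => ?_
    obtain ⟨n, rfl⟩ := he g
    exact ContinuousLinearMap.ext (ha _ ⟨n, rfl⟩)
  exact (DFunLike.congr_fun ((VP085.Lit.Sanity.mem_vn.1 hx) a (Or.inl h)) v).symm

/-- The hypotheses of the statement are satisfiable. -/
theorem exists_instance :
    ∃ (H : Type) (_ : NormedAddCommGroup H) (_ : InnerProductSpace ℂ H) (_ : CompleteSpace H)
      (M : VonNeumannAlgebra H), IsTypeTwoOneFactor H M ∧ IsCountablyGenerated H M := by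
  let G := VP085.Lit.Sanity.perms
  have : Countable G := (MonoidHom.rangeRestrict_surjective _).countable
  have : Infinite G := Infinite.of_injective
    (fun n : ℕ => (⟨Equiv.swap 0 n, ⟨FreeGroup.of (0, n), FreeGroup.lift_apply_of⟩⟩ : G))
    fun m n e => by simpa using congrArg (fun f : G => (f : Equiv.Perm ℕ) 0) e
  exact ⟨GroupL2 G, inferInstance, inferInstance, inferInstance, VP085.Lit.Sanity.vn G,
    typeTwoOne_of ⟨VP085.Lit.Sanity.isFactor VP085.Lit.Sanity.perms_icc,
      VP085.Lit.Sanity.isInfiniteDim, VP085.Lit.Sanity.exists_trace⟩, countablyGenerated G⟩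

universe u

variable {H : Type u} [NormedAddCommGroup H] [InnerProductSpace ℂ H] [CompleteSpace H]

/-- The unit ball of `M`. -/
def ball (M : VonNeumannAlgebra H) : Set (H →L[ℂ] H) := {x | x ∈ M ∧ ‖x‖ ≤ 1}

/-- Distance below `γ` gives the two inclusions. -/
theorem nearIncl_of_dist {M N : VonNeumannAlgebra H} {γ : ℝ}
    (h : Metric.hausdorffDist (ball M) (ball N) < γ) :
    NearIncl (M : Set (H →L[ℂ] H)) N γ := by
  intro x hx h1
  have hb : ∀ M : VonNeumannAlgebra H, Bornology.IsBounded (ball M) := fun M =>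
    Metric.isBounded_closedBall.subset fun y hy => mem_closedBall_zero_iff.2 hy.2
  have hn : ∀ M : VonNeumannAlgebra H, (ball M).Nonempty := fun M =>
    ⟨0, zero_mem M.toStarSubalgebra, by simp⟩
  obtain ⟨y, hy, hd⟩ := Metric.exists_dist_lt_of_hausdorffDist_lt
    (show x ∈ ball M from ⟨hx, h1⟩) h
    (Metric.hausdorffEDist_ne_top_of_nonempty_of_bounded (hn M) (hn N) (hb M) (hb N))
  exact ⟨y, hy.1, le_of_lt (by simpa [opDist, dist_eq_norm] using hd)⟩

/-- The epsilon-delta form of the question. -/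
theorem epsDelta (h : Target.{u}) :
    ∀ ε : ℝ, 0 < ε → ∃ δ : ℝ, 0 < δ ∧ ∀ (H : Type u) [NormedAddCommGroup H]
      [InnerProductSpace ℂ H] [CompleteSpace H] (M N : VonNeumannAlgebra H),
      IsTypeTwoOneFactor H M → IsCountablyGenerated H M →
        Metric.hausdorffDist (ball M) (ball N) < δ → NearConj M N ε := by
  intro ε hε
  obtain ⟨δ, C, hδ, hC⟩ := h
  refine ⟨min (δ / 2) (ε / (|C| + 1)), lt_min (half_pos hδ) (div_pos hε (by positivity)), ?_⟩
  intro H _ _ _ M N h2 hg hd
  set γ := min (δ / 2) (ε / (|C| + 1)) with hγ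
  obtain ⟨u, hu, hn, h12⟩ := hC H M N γ h2 hg (lt_of_le_of_lt (min_le_left _ _) (half_lt_self hδ))
    ⟨nearIncl_of_dist hd, nearIncl_of_dist (by rwa [Metric.hausdorffDist_comm])⟩
  refine ⟨u, hu, hn.trans ?_, h12⟩
  have h0 : (0 : ℝ) ≤ γ := le_min (half_pos hδ).le (div_pos hε (by positivity)).le
  calc C * γ ≤ (|C| + 1) * γ := by gcongr; linarith [le_abs_self C]
    _ ≤ (|C| + 1) * (ε / (|C| + 1)) := by gcongr; exact min_le_right _ _
    _ = ε := by field_simp

end Vale.Agent.P096.Lit
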